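import Vale.Agent.P372.Lim.Defs

open Matrix Kronecker
open scoped ComplexOrder

namespace Vale.Agent.P372

/-- Code projections: orthogonal projections `Q` that are linear combinations of products
`h = ⨂ i, u i` of operators `u i` with the property `P`, such that `h Q = χ Q` with a number `χ`. If
`P` are the Weyl operators then these are the projections onto stabilizer codes. -/
def CodeProj {X ι : Type} [Fintype X] [DecidableEq X] [Fintype ι] [DecidableEq ι]
    (P : Matrix X X ℂ → Prop) (Q : Matrix (ι → X) (ι → X) ℂ) : Prop :=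
  Qᴴ = Q ∧ Q * Q = Q ∧ Q ∈ Submodule.span ℂ {h | ∃ u : ι → Matrix X X ℂ, (∀ i, P (u i)) ∧
    (∀ p q, h p q = ∏ i, u i (p i) (q i)) ∧ ∃ χ : ℂ, h * Q = χ • Q}

/-- The operator `R` on `n` copies is a product of positive operators `Q i` on the blocks
`{j | π j = i}` of a partition of the `n` copies; the block `i = 0` has at most `M` copies, and
every other `Q i` is a code projection or an operator on at most `N` copies. -/
def CodeBlocks {X : Type} [Fintype X] [DecidableEq X] (P : Matrix X X ℂ → Prop) {n : ℕ}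
    (N M : ℕ) (R : Matrix (Fin n → X) (Fin n → X) ℂ) : Prop :=
  ∃ (m : ℕ) (π : Fin n → Fin (m + 1))
    (Q : ∀ i, Matrix ({j // π j = i} → X) ({j // π j = i} → X) ℂ),
    Fintype.card {j // π j = 0} ≤ M ∧
      (∀ i, i ≠ 0 → Fintype.card {j // π j = i} ≤ N ∨ CodeProj P (Q i)) ∧
      (∀ i, (Q i).PosSemidef) ∧ ∀ p q, R p q = ∏ i, Q i (fun j => p j) (fun j => q j)

/-- `R ≤ G ≤ c R` for such a product `R`. -/
def NearCodeBlocks {X : Type} [Fintype X] [DecidableEq X] (P : Matrix X X ℂ → Prop) {n : ℕ}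
    (N M : ℕ) (c : ℝ) (G : Matrix (Fin n → X) (Fin n → X) ℂ) : Prop :=
  ∃ R, CodeBlocks P N M R ∧ (G - R).PosSemidef ∧ ((c : ℂ) • R - G).PosSemidef

/-- Unitary, and scalar or of trace zero. -/
def ScalarOrTraceless {X : Type} [Fintype X] [DecidableEq X] (v : Matrix X X ℂ) : Prop :=
  vᴴ * v = 1 ∧ (v.trace = 0 ∨ ∃ c : ℂ, v = c • 1)

/-- `v ⊗ w` with `v`, `w` unitary, each scalar or of trace zero. -/
def LocalPair {X Y : Type} [Fintype X] [DecidableEq X] [Fintype Y] [DecidableEq Y]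
    (u : Matrix (X × Y) (X × Y) ℂ) : Prop :=
  ∃ (v : Matrix X X ℂ) (w : Matrix Y Y ℂ), ScalarOrTraceless v ∧ ScalarOrTraceless w ∧ u = v ⊗ₖ w

/-- `s₀ 1 + s₁ F + s₂ F' + s₃ F F'`, where `F` swaps the systems `X` of Alice and Bob and `F'` swaps
their systems `Y`. -/
def swapComb {X Y : Type} [DecidableEq X] [DecidableEq Y] (s : Fin 4 → ℂ) :
    Matrix ((X × Y) × (X × Y)) ((X × Y) × (X × Y)) ℂ :=
  fun p q =>
    s 0 * ((if p.1.1 = q.1.1 ∧ p.2.1 = q.2.1 then 1 else 0) *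
      (if p.1.2 = q.1.2 ∧ p.2.2 = q.2.2 then 1 else 0)) +
    s 1 * ((if p.1.1 = q.2.1 ∧ p.2.1 = q.1.1 then 1 else 0) *
      (if p.1.2 = q.1.2 ∧ p.2.2 = q.2.2 then 1 else 0)) +
    s 2 * ((if p.1.1 = q.1.1 ∧ p.2.1 = q.2.1 then 1 else 0) *
      (if p.1.2 = q.2.2 ∧ p.2.2 = q.1.2 then 1 else 0)) +
    s 3 * ((if p.1.1 = q.2.1 ∧ p.2.1 = q.1.1 then 1 else 0) *
      (if p.1.2 = q.2.2 ∧ p.2.2 = q.1.2 then 1 else 0))

/-- `∑ g, p g |Φ g⟩⟨Φ g|` with the vectors `Φ g = (1 ⊗ W g) ∑ x, |x x⟩`. If `W g` are the Weyl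
operators then these are the Bell-diagonal operators. -/
def bellComb {X ι : Type} [Fintype ι] (W : ι → Matrix X X ℂ) (p : ι → ℂ) :
    Matrix (X × X) (X × X) ℂ :=
  fun z w => ∑ g, p g * (W g z.2 z.1 * star (W g w.2 w.1))

/-- Unitaries that commute up to scalars, each scalar or of trace zero. -/
def ErrorBasis {X ι : Type} [Fintype X] [DecidableEq X] (W : ι → Matrix X X ℂ) : Prop :=
  (∀ g, ScalarOrTraceless (W g)) ∧ ∀ g h, ∃ ζ : ℂ, W g * W h = ζ • (W h * W g)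

end Vale.Agent.P372
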